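import Vale.Agent.P148.R2.F.Obs

/-!
# P148, module F: the crossing probabilities converge, from the four interfaces
-/

open MeasureTheory Set Metric Topology Filter ProbabilityTheory
open scoped ENNReal NNReal ComplexConjugate

namespace Vale.Agent.P148.R2.F

open _root_.P148
open Vale.Agent.P148.R2.H592 (HullTri Fc vc tail head ConnIn CV Fib fib_cmap nbr vcell)
open Vale.Agent.P148.R2.H219 (IsTest WeakSmall WeakSmallC dbar ddd tau vec sum3)

universe u

section conv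

variable {ι : Type} {Q : Quad} {l : Filter ι} {m : ι → ℝ × Set Pt} {E : ι → Dom}

/-- There are free sites near every point of the closure of the domain. -/
theorem free_near (hm : Tendsto m l whp.{u}) (hC : Conv Q l m E) {p : ℂ} (hp : p ∈ closure Q.D)
    {r : ℝ} (hr : 0 < r) : ∀ᶠ i in l, ∃ x, (E i).Free x ∧ dist x p < r := by
  obtain ⟨w, hw, hwp⟩ := Metric.mem_closure_iff.1 hp (r / 2) (by positivity)
  obtain ⟨s, hs, hsQ⟩ := Metric.isOpen_iff.1 (Half.isOpen_D Q) w hw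
  set t : ℝ := min s r / 2 with ht
  have ht0 : 0 < t := by positivity
  have h1 := hm.eventually (whp_net.{u} ‖w‖ ht0)
  filter_upwards [h1, hC.win (‖w‖ + t + 1), hC.inner t ht0] with i h1 h2 h3
  obtain ⟨x, hx, hx'⟩ := h1 w (by simp)
  have hxX : x ∈ (E i).X := by
    refine h2 ⟨hx, ?_⟩
    rw [mem_ball_zero_iff]
    have := norm_sub_norm_le x w
    rw [← dist_eq_norm, dist_comm] at this
    linarith
  refine ⟨x, h3 x hxX ?_, ?_⟩
  · refine subset_trans ?_ hsQ
    refine ball_subset_ball' ?_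
    rw [dist_comm]
    have : min s r ≤ s := min_le_left _ _
    linarith
  · have h4 := dist_triangle x w p
    rw [dist_comm x w] at h4
    rw [dist_comm] at hwp
    have : min s r ≤ r := min_le_right _ _
    linarith

/-- The nearest free site is near. -/
theorem near_close {D : Dom} {x z p : ℂ} {r : ℝ} (hx : D.Free x) (hxp : dist x p < r)
    {q : D.Dt} (hq : D.Near z q) : dist (tail q) p < 2 * dist z p + r := by
  have h1 := hq.2 x hx
  have h2 := dist_triangle (tail q) z p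
  have h3 := dist_triangle z p x
  rw [dist_comm (tail q) z] at h2
  rw [dist_comm p x] at h3
  linarith

theorem hz_equi (hm : Tendsto m l whp.{u}) (hC : Conv Q l m E)
    (hB : ∀ j : ZMod 3, ∀ p ∈ closure Q.D, ∀ η > 0, ∃ δ > 0, ∀ᶠ i in l, ∀ q q' : (E i).Dt,
      (E i).Free (tail q) → (E i).Free (tail q') → dist (tail q) p < δ → dist (tail q') p < δ →
      |(E i).H j q - (E i).H j q'| ≤ η) :
    ∀ j : Fin 3, ∀ p ∈ closure Q.D, ∀ η > 0, ∃ δ > 0, ∀ᶠ i in l, ∀ z ∈ Q.D, ∀ w ∈ Q.D,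
      dist z p < δ → dist w p < δ → |(E i).Hz j z - (E i).Hz j w| ≤ η := by
  intro j p hp η hη
  obtain ⟨δ, hδ, h⟩ := hB j p hp η hη
  refine ⟨δ / 4, by positivity, ?_⟩
  filter_upwards [h, free_near hm hC hp (show 0 < δ / 2 by positivity)] with i h1 h2 z _ w _ hzp hwp
  obtain ⟨x, hx, hxp⟩ := h2
  obtain ⟨q, hq, hq'⟩ := (E i).Hz_spec hx z
  obtain ⟨q1, hq1, hq1'⟩ := (E i).Hz_spec hx w
  rw [hq' j, hq1' j]
  have e1 := near_close hx hxp hq
  have e2 := near_close hx hxp hq1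
  exact h1 q q1 hq.1 hq1.1 (by linarith) (by linarith)

theorem hz_bd (hm : Tendsto m l whp.{u}) (hC : Conv Q l m E)
    (hB : ∀ j : ZMod 3, ∀ p ∈ arc3 Q j, ∀ η > 0, ∃ δ > 0, ∀ᶠ i in l, ∀ q : (E i).Dt,
      (E i).Free (tail q) → dist (tail q) p < δ → (E i).H j q ≤ η) (j : Fin 3) :
    ∀ p ∈ arc3 Q j, p ∈ closure Q.D → ∀ η > 0, ∃ δ > 0, ∀ᶠ i in l, ∀ z ∈ Q.D, dist z p < δ →
      (E i).Hz j z ≤ η := by
  intro p hp hpc η hη
  obtain ⟨δ, hδ, h⟩ := hB j p hp η hη
  refine ⟨δ / 4, by positivity, ?_⟩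
  filter_upwards [h, free_near hm hC hpc (show 0 < δ / 2 by positivity)] with i h1 h2 z _ hzp
  obtain ⟨x, hx, hxp⟩ := h2
  obtain ⟨q, hq, hq'⟩ := (E i).Hz_spec hx z
  rw [hq' j]
  have e1 := near_close hx hxp hq
  exact h1 q hq.1 (by linarith)

/-- The three observables add up to one. -/
theorem hz_sum (hm : Tendsto m l whp.{u}) (hC : Conv Q l m E) :
    ∀ᶠ i in l, ∀ z, (E i).Hz 0 z + (E i).Hz 1 z + (E i).Hz 2 z = 1 := by
  have hp : Q.mark 0 ∈ closure Q.D := Half.mark_mem_closure Q 0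
  filter_upwards [free_near hm hC hp one_pos, hC.oconn] with i h1 h2 z
  obtain ⟨x, hx, -⟩ := h1
  obtain ⟨q, hq, hq'⟩ := (E i).Hz_spec hx z
  rw [hq' 0, hq' 1, hq' 2]
  exact (E i).sum_H (h2 q hq.1) hq.1

/-- Near the points of the domain all sites are free. -/
theorem free_of_near (hC : Conv Q l m E) {p : ℂ} (hp : p ∈ Q.D) :
    ∃ r > 0, ∀ᶠ i in l, ∀ x ∈ (E i).X, dist x p < r → (E i).Free x := by
  obtain ⟨s, hs, hsQ⟩ := Metric.isOpen_iff.1 (Half.isOpen_D Q) p hp
  refine ⟨s / 2, by positivity, ?_⟩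
  filter_upwards [hC.inner (s / 2) (by positivity)] with i hi x hx hxp
  refine hi x hx ((ball_subset_ball' ?_).trans hsQ)
  linarith

theorem tail_mem (D : Dom) (q : D.Dt) : tail q ∈ D.X := (D.hull.nbr_th q).1

/-- Equicontinuity of `VV` inside. -/
theorem vv_equi (hC : Conv Q l m E)
    (hB : ∀ j : ZMod 3, ∀ p ∈ closure Q.D, ∀ η > 0, ∃ δ > 0, ∀ᶠ i in l, ∀ q q' : (E i).Dt,
      (E i).Free (tail q) → (E i).Free (tail q') → dist (tail q) p < δ → dist (tail q') p < δ →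
      |(E i).H j q - (E i).H j q'| ≤ η) :
    ∀ p ∈ Q.D, ∀ η > 0, ∃ δ > 0, ∀ᶠ i in l, ∀ q q' : (E i).Dt,
      dist (tail q) p < δ → dist (tail q') p < δ → ‖(E i).VV q - (E i).VV q'‖ ≤ η := by
  intro p hp η hη
  obtain ⟨r, hr, hF⟩ := free_of_near hC hp
  choose δ hδ h using fun j : ZMod 3 => hB j p (subset_closure hp) (η / 3) (by positivity)
  refine ⟨min r (min (δ 0) (min (δ 1) (δ 2))),
    lt_min hr (lt_min (hδ 0) (lt_min (hδ 1) (hδ 2))), ?_⟩
  filter_upwards [hF, h 0, h 1, h 2] with i hF h0 h1 h2 q q' hq hq'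
  simp only [lt_min_iff] at hq hq'
  have f1 := hF _ (tail_mem _ q) hq.1
  have f2 := hF _ (tail_mem _ q') hq'.1
  have e0 := h0 q q' f1 f2 hq.2.1 hq'.2.1
  have e1 := h1 q q' f1 f2 hq.2.2.1 hq'.2.2.1
  have e2 := h2 q q' f1 f2 hq.2.2.2 hq'.2.2.2
  have ht : ‖tau‖ = 1 := by
    have h1 : ‖tau‖ ^ 3 = 1 := by
      rw [← norm_pow]
      have : tau ^ 3 = 1 := by linear_combination (tau - 1) * Dom.tau_root
      rw [this, norm_one]
    exact (pow_eq_one_iff_of_nonneg (norm_nonneg _) (by norm_num)).1 h1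
  have key : ‖((E i).H 0 q : ℂ) + tau * ((E i).H 1 q : ℂ) + tau ^ 2 * ((E i).H 2 q : ℂ) -
      (((E i).H 0 q' : ℂ) + tau * ((E i).H 1 q' : ℂ) + tau ^ 2 * ((E i).H 2 q' : ℂ))‖ ≤ η := by
    have e : ((E i).H 0 q : ℂ) + tau * ((E i).H 1 q : ℂ) + tau ^ 2 * ((E i).H 2 q : ℂ) -
        (((E i).H 0 q' : ℂ) + tau * ((E i).H 1 q' : ℂ) + tau ^ 2 * ((E i).H 2 q' : ℂ)) =
        (((E i).H 0 q - (E i).H 0 q' : ℝ) : ℂ) + tau * (((E i).H 1 q - (E i).H 1 q' : ℝ) : ℂ) +
        tau ^ 2 * (((E i).H 2 q - (E i).H 2 q' : ℝ) : ℂ) := by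
      push_cast; ring
    rw [e]
    refine (norm_add₃_le).trans ?_
    rw [norm_mul, norm_mul, norm_pow, ht, one_pow, one_mul, one_mul, Complex.norm_real,
      Complex.norm_real, Complex.norm_real, Real.norm_eq_abs, Real.norm_eq_abs, Real.norm_eq_abs]
    linarith
  by_cases hpos : (E i).Pos
  · rw [Dom.VV_pos _ hpos, Dom.VV_pos _ hpos]
    exact key
  · rw [Dom.VV_neg _ hpos, Dom.VV_neg _ hpos, ← map_sub, Complex.norm_conj]
    exact key

/-- In compact sets inside, the nearest free site is the nearest site. -/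
theorem vcell_of_near (hm : Tendsto m l whp.{u}) (hC : Conv Q l m E) {K : Set ℂ}
    (hK : IsCompact K) (hKD : K ⊆ Q.D) : ∀ᶠ i in l, ∀ z ∈ K, ∀ q : (E i).Dt, (E i).Near z q →
      z ∈ vcell (E i).X (tail q) := by
  obtain ⟨s, hs, hsQ⟩ := hK.exists_thickening_subset_open (Half.isOpen_D Q) hKD
  obtain ⟨R, hR⟩ := hK.isBounded.subset_closedBall (0 : ℂ)
  have ht : 0 < s / 2 := by positivity
  filter_upwards [hm.eventually (whp_net.{u} R ht), hC.win (R + s / 2 + 1),
    hC.inner (s / 2) ht] with i h1 h2 h3 z hz q hq w hw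
  -- a free site within s/2
  have hfree : ∀ x ∈ (E i).X, dist z x < s / 2 → (E i).Free x := by
    intro x hx hzx
    refine h3 x hx fun y hy => hsQ ?_
    rw [mem_thickening_iff]
    refine ⟨z, hz, ?_⟩
    rw [mem_ball] at hy
    have := dist_triangle y x z
    rw [dist_comm x z] at this
    linarith
  obtain ⟨x, hx, hzx⟩ := h1 z (hR hz)
  have hzR := hR hz
  rw [mem_closedBall_zero_iff] at hzR
  have hxX : x ∈ (E i).X := by
    refine h2 ⟨hx, ?_⟩
    rw [mem_ball_zero_iff]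
    have := norm_sub_norm_le x z
    rw [← dist_eq_norm, dist_comm] at this
    linarith
  by_cases hzw : dist z w < s / 2
  · exact hq.2 w (hfree w hw hzw)
  · exact (hq.2 x (hfree x hxX hzx)).trans (hzx.le.trans (not_lt.1 hzw))

/-! ### the weak equations -/

theorem integrable_tw {k k' G : ℂ → ℂ} (hk : Measurable k) (hk' : Measurable k')
    (h : ∀ z, ‖k' z‖ = ‖k z‖) (hG : Integrable fun z => k z * G z) :
    (Integrable fun z => k' z * G z) ∧ Integrable fun z => k' z * conj (G z) := by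
  have hf := hG.aestronglyMeasurable.aemeasurable
  have h0 : ∀ z, k z = 0 → k' z = 0 := fun z hz => by
    rw [← norm_eq_zero, h z, hz, norm_zero]
  have e1 : (fun z => k' z * G z) = fun z => k' z * (k z * G z) / k z := by
    funext z
    by_cases hz : k z = 0
    · rw [h0 z hz]; simp
    · field_simp
  have e2 : (fun z => k' z * conj (G z)) = fun z => k' z * conj (k z * G z) / conj (k z) := by
    funext z
    by_cases hz : k z = 0
    · rw [h0 z hz]; simp
    · have : conj (k z) ≠ 0 := fun hh => hz (by simpa using hh)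
      rw [map_mul]
      field_simp
  have hcj : Measurable (conj : ℂ → ℂ) := Complex.continuous_conj.measurable
  refine ⟨hG.mono ?_ (Eventually.of_forall fun z => ?_), hG.mono ?_ (Eventually.of_forall fun z => ?_)⟩
  · rw [e1]
    exact ((hk'.aemeasurable.mul hf).div hk.aemeasurable).aestronglyMeasurable
  · rw [norm_mul, norm_mul, h z]
  · rw [e2]
    exact ((hk'.aemeasurable.mul (hcj.comp_aemeasurable hf)).div
      (hcj.comp hk).aemeasurable).aestronglyMeasurable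
  · rw [norm_mul, norm_mul, h z, Complex.norm_conj]

open Classical in
/-- The constant which chooses the alternative. -/
noncomputable def cst (D : Dom) : ℂ := if D.Pos then -(1 / 2) else 1 / 2

theorem vec_near {D : Dom} {x z : ℂ} (hx : D.Free x) : ∃ q : D.Dt, D.Near z q ∧
    (D.Pos → vec D.Hz z = D.VV q) ∧ (¬ D.Pos → vec D.Hz z = conj (D.VV q)) := by
  obtain ⟨q, hq, hq'⟩ := D.Hz_spec hx z
  refine ⟨q, hq, fun hp => ?_, fun hp => ?_⟩
  · rw [D.VV_pos hp, vec, hq' 0, hq' 1, hq' 2]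
    rfl
  · rw [D.VV_neg hp, vec, hq' 0, hq' 1, hq' 2, Complex.conj_conj]
    rfl

/-- The weak form of `∂̄ V = 0`, resp. its conjugate, with the constants `cst`. -/
theorem weak_eqs (hm : Tendsto m l whp.{u}) (hC : Conv Q l m E) {χ : ℂ → ℝ} (hχ : IsTest Q.D χ)
    (hS : ∀ η > 0, ∀ᶠ i in l, ∃ G : ℂ → ℂ, Integrable (fun z => dbar χ z * G z) ∧
      (∀ z ∈ tsupport (dbar χ), ∀ q : (E i).Dt, z ∈ vcell (E i).X (tail q) →
        ‖G z - (E i).VV q‖ ≤ η) ∧ ‖∫ z, dbar χ z * G z‖ ≤ η) :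
    WeakSmallC l (fun i => cst (E i) - 1 / 2) (fun i => vec (E i).Hz) (dbar χ) ∧
    WeakSmallC l (fun i => cst (E i) + 1 / 2) (fun i => vec (E i).Hz) (ddd χ) := by
  have hmd : Measurable (dbar χ) := hχ.continuous_dbar.measurable
  have hmd' : Measurable (ddd χ) := by
    have : ddd χ = fun z => conj (dbar χ z) := by funext z; rw [H219.conj_dbar]
    rw [this]
    exact Complex.continuous_conj.measurable.comp hmd
  have hnn : ∀ z, ‖ddd χ z‖ = ‖dbar χ z‖ := fun z => by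
    rw [← H219.conj_dbar, Complex.norm_conj]
  have hts : tsupport (ddd χ) = tsupport (dbar χ) := by
    unfold tsupport
    congr 1
    ext z
    simp only [Function.mem_support, ne_eq, ← norm_eq_zero (a := ddd χ z), hnn z, norm_eq_zero]
  have hKD : tsupport (dbar χ) ⊆ Q.D := (H219.tsupport_dbar χ).trans hχ.supp
  have hK : IsCompact (tsupport (dbar χ)) := hχ.compact_dbar.isCompact
  have hp : Q.mark 0 ∈ closure Q.D := Half.mark_mem_closure Q 0
  have key : ∀ η > 0, ∀ᶠ i in l, ∃ G : ℂ → ℂ, Integrable (fun z => dbar χ z * G z) ∧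
      (∀ z ∈ tsupport (dbar χ), ((E i).Pos → ‖G z - vec (E i).Hz z‖ ≤ η) ∧
        (¬ (E i).Pos → ‖conj (G z) - vec (E i).Hz z‖ ≤ η)) ∧ ‖∫ z, dbar χ z * G z‖ ≤ η := by
    intro η hη
    filter_upwards [hS η hη, free_near hm hC hp one_pos, vcell_of_near hm hC hK hKD]
      with i hi hf hv
    obtain ⟨G, h1, h2, h3⟩ := hi
    obtain ⟨x, hx, -⟩ := hf
    refine ⟨G, h1, fun z hz => ?_, h3⟩
    obtain ⟨q, hq, hq1, hq2⟩ := vec_near (z := z) hx
    have h4 := h2 z hz q (hv z hz q hq)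
    refine ⟨fun hp => ?_, fun hp => ?_⟩
    · rw [hq1 hp]; exact h4
    · rw [hq2 hp, ← map_sub, Complex.norm_conj]; exact h4
  constructor
  · intro η hη
    filter_upwards [key η hη] with i hi
    obtain ⟨G, h1, h2, h3⟩ := hi
    by_cases hpos : (E i).Pos
    · refine ⟨G, h1, fun z hz => (h2 z hz).1 hpos, ?_⟩
      have : cst (E i) - 1 / 2 = -1 := by
        unfold cst; rw [if_pos hpos]; norm_num
      rw [this, norm_mul, norm_neg, norm_one, one_mul]
      exact h3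
    · refine ⟨fun z => conj (G z), (integrable_tw hmd hmd (fun _ => rfl) h1).2,
        fun z hz => (h2 z hz).2 hpos, ?_⟩
      have : cst (E i) - 1 / 2 = 0 := by
        unfold cst; rw [if_neg hpos]; norm_num
      rw [this, zero_mul, norm_zero]
      exact hη.le
  · intro η hη
    filter_upwards [key η hη] with i hi
    obtain ⟨G, h1, h2, h3⟩ := hi
    by_cases hpos : (E i).Pos
    · refine ⟨G, (integrable_tw hmd hmd' hnn h1).1, fun z hz => (h2 z (hts ▸ hz)).1 hpos, ?_⟩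
      have : cst (E i) + 1 / 2 = 0 := by
        unfold cst; rw [if_pos hpos]; norm_num
      rw [this, zero_mul, norm_zero]
      exact hη.le
    · refine ⟨fun z => conj (G z), (integrable_tw hmd hmd' hnn h1).2,
        fun z hz => (h2 z (hts ▸ hz)).2 hpos, ?_⟩
      have : cst (E i) + 1 / 2 = 1 := by
        unfold cst; rw [if_neg hpos]; norm_num
      rw [this, one_mul]
      have e : ∫ z, ddd χ z * conj (G z) = conj (∫ z, dbar χ z * G z) := by
        rw [← integral_conj]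
        refine integral_congr_ae (Eventually.of_forall fun z => ?_)
        simp only [map_mul, H219.conj_dbar]
      rw [e, Complex.norm_conj]
      exact h3

/-- **The limit of the observables near the second marked point.** -/
theorem limit_of_stmts (hBV : BVStmt.{u}) (hSS : SStmt.{u}) (hL : LLNStmt.{u})
    {φ : ℂ → ℂ} {x : ℝ} (h : Q.IsUniformizer φ x) (hm : Tendsto m l whp.{u})
    (hC : Conv Q l m E) :
    (∀ η > 0, ∃ δ > 0, ∀ᶠ i in l, ∀ z ∈ Q.D, dist z (Q.mark 1) < δ →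
      |(E i).Hz 2 z - cardy x| ≤ η) ∧
    (∀ η > 0, ∃ δ > 0, ∀ᶠ i in l, ∀ z ∈ Q.D, dist z (Q.mark 1) < δ →
      |(E i).Hz 1 z - (1 - cardy x)| ≤ η) := by
  obtain ⟨hB1, hB2⟩ := hBV Q l m E hm hC
  have hsum := hz_sum hm hC
  have hcl : ∀ j : Fin 4, Q.arc j ⊆ closure Q.D := fun j => Q.arc_subset j
  have b0 : ∀ p ∈ Q.arc 0 ∪ Q.arc 1, ∀ η > 0, ∃ δ > 0, ∀ᶠ i in l, ∀ z ∈ Q.D, dist z p < δ →
      (E i).Hz 0 z ≤ η := fun p hp => hz_bd hm hC hB2 0 p hp (by
    rcases hp with hp | hp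
    · exact hcl 0 hp
    · exact hcl 1 hp)
  have b1 : ∀ p ∈ Q.arc 2, ∀ η > 0, ∃ δ > 0, ∀ᶠ i in l, ∀ z ∈ Q.D, dist z p < δ →
      (E i).Hz 1 z ≤ η := fun p hp => hz_bd hm hC hB2 1 p hp (hcl 2 hp)
  have b2 : ∀ p ∈ Q.arc 3, ∀ η > 0, ∃ δ > 0, ∀ᶠ i in l, ∀ z ∈ Q.D, dist z p < δ →
      (E i).Hz 2 z ≤ η := fun p hp => hz_bd hm hC hB2 2 p hp (hcl 3 hp)
  have hweak : ∀ χ : ℂ → ℝ, IsTest Q.D χ → _ := fun χ hχ =>
    weak_eqs hm hC hχ (hSS Q l m E hm hC (vv_equi hC hB1) χ hχ (hL Q l m E hm hC χ hχ))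
  have hmain := H219.three_arc_limit h (l := l) (H := fun i => (E i).Hz)
    (Eventually.of_forall fun i j z _ => (E i).Hz_bd j z)
    (hz_equi hm hC hB1) b0 b1 b2 (a := Q.mark 0) (Half.mark_mem_closure Q 0)
    (fun η hη => ⟨1, one_pos, by
      filter_upwards [hsum] with i hi z _ _
      rw [hi z, sub_self, abs_zero]
      exact hη.le⟩)
    (fun χ hχ η hη => by
      filter_upwards [hsum] with i hi
      refine ⟨fun _ => 1, ?_, fun z _ => ?_, ?_⟩
      · simpa using hχ.continuous_dbar.integrable_of_hasCompactSupport hχ.compact_dbar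
      · have : sum3 (E i).Hz z = 1 := by
          rw [sum3, ← Complex.ofReal_add, ← Complex.ofReal_add, hi z, Complex.ofReal_one]
        rw [this, sub_self, norm_zero]
        exact hη.le
      · simp [H219.integral_dbar_zero hχ, hη.le])
    (c := fun i => cst (E i)) (s := 1 / 2) (by norm_num)
    (fun χ hχ => (hweak χ hχ).1) (fun χ hχ => (hweak χ hχ).2)
  refine ⟨hmain.2, fun η hη => ?_⟩
  obtain ⟨δ, hδ, h1⟩ := hmain.2 (η / 2) (by positivity)
  obtain ⟨δ', hδ', h2⟩ := b0 (Q.mark 1) (Or.inl (H219.mark_mem_arc' Q 0)) (η / 2) (by positivity)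
  refine ⟨min δ δ', lt_min hδ hδ', ?_⟩
  filter_upwards [h1, h2, hsum] with i h1 h2 h3 z hz hzd
  have e1 := abs_le.1 (h1 z hz (hzd.trans_le (min_le_left _ _)))
  have e2 := h2 z hz (hzd.trans_le (min_le_right _ _))
  have e3 := h3 z
  have e4 := ((E i).Hz_bd 0 z).1
  rw [abs_le]
  constructor <;> linarith [e1.1, e1.2]

end conv

end Vale.Agent.P148.R2.F
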