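import Vale.Agent.P148.R2.H566.Omega

/-!
# The choice of one good world (P148, row CAL)

A family of error functions of a scene whose quenched means have a small upper mean is small at one
configuration of the good event and one index of the scene.
-/

set_option linter.unusedSectionVars false

open MeasureTheory Set Metric Filter ProbabilityTheory Topology
open scoped ENNReal NNReal

namespace Vale.Agent.P148.R2.F

open _root_.P148
open Vale.Agent.P148.R2.H566 (UB Ev EvMean Scene)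

universe u

section
variable {Ω : Type*} [MeasurableSpace Ω] {P : Measure Ω} [IsProbabilityMeasure P]

/-- A function of small upper mean is small somewhere on every event of probability at least one
half. -/
theorem exists_of_UB {f : Ω → ℝ≥0∞} {c : ℝ≥0∞} (h : UB P f c) {B : Set Ω}
    (hB : P Bᶜ ≤ ENNReal.ofReal (1 / 2)) {κ : ℝ≥0∞} (hκ : 2 * c < κ) :
    ∃ ω ∈ B, f ω ≤ κ := by
  by_contra hcon
  push Not at hcon
  obtain ⟨g, hg, hfg, hint⟩ := h
  have h1 : P {ω | g ω < κ} ≤ ENNReal.ofReal (1 / 2) := by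
    refine le_trans ?_ hB
    refine measure_mono_ae ?_
    filter_upwards [hfg] with ω hω hgω
    intro hωB
    exact absurd (lt_of_le_of_lt hω hgω) (not_lt.2 (hcon ω hωB).le)
  have hm : MeasurableSet {ω | g ω < κ} := measurableSet_lt hg measurable_const
  have h2 : ENNReal.ofReal (1 / 2) ≤ P {ω | κ ≤ g ω} := by
    have e : {ω | κ ≤ g ω} = {ω | g ω < κ}ᶜ := by ext ω; simp
    rw [e, prob_compl_eq_one_sub hm]
    refine ENNReal.le_sub_of_add_le_right (ne_top_of_le_ne_top ENNReal.ofReal_ne_top h1) ?_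
    refine (add_le_add le_rfl h1).trans (le_of_eq ?_)
    rw [← ENNReal.ofReal_add (by norm_num) (by norm_num)]
    norm_num
  have h3 : κ * P {ω | κ ≤ g ω} ≤ c := (mul_meas_ge_le_lintegral hg κ).trans hint
  have h4 : κ * ENNReal.ofReal (1 / 2) ≤ c := (mul_le_mul' le_rfl h2).trans h3
  have h5 : κ ≤ 2 * c := by
    calc κ = 2 * (κ * ENNReal.ofReal (1 / 2)) := by
          rw [mul_left_comm, show (2 : ℝ≥0∞) = ENNReal.ofReal 2 by norm_num,
            ← ENNReal.ofReal_mul (by norm_num)]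
          norm_num
      _ ≤ 2 * c := by gcongr
  exact absurd hκ (not_lt.2 h5)

/-- A mean which is at most `κ` has a term at most `κ`. -/
theorem exists_index {ι : Type*} [Fintype ι] {p F : ι → ℝ≥0∞} (hp : ∑ i, p i = 1) {κ : ℝ≥0∞}
    (h : ∑ i, p i * F i ≤ κ) : ∃ i, p i ≠ 0 ∧ F i ≤ κ := by
  classical
  by_contra hcon
  push Not at hcon
  set s : Finset ι := Finset.univ.filter fun i => p i ≠ 0 with hs
  have hsp : ∑ i ∈ s, p i = 1 := by rw [hs, Finset.sum_filter_ne_zero, hp]
  have hne : s.Nonempty := by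
    rw [Finset.nonempty_iff_ne_empty]
    rintro e
    rw [e, Finset.sum_empty] at hsp
    exact zero_ne_one hsp
  have hpt : ∀ i, p i ≠ ⊤ := fun i => by
    refine ne_top_of_le_ne_top ENNReal.one_ne_top ?_
    rw [← hp]
    exact Finset.single_le_sum (fun _ _ => zero_le) (Finset.mem_univ i)
  have h1 : κ < ∑ i ∈ s, p i * F i := by
    calc κ = ∑ i ∈ s, p i * κ := by rw [← Finset.sum_mul, hsp, one_mul]
      _ < ∑ i ∈ s, p i * F i := by
        refine ENNReal.sum_lt_sum_of_nonempty hne fun i hi => ?_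
        have hi' : p i ≠ 0 := (Finset.mem_filter.1 hi).2
        exact (ENNReal.mul_lt_mul_iff_right hi' (hpt i)).2 (hcon i hi')
  have h2 : ∑ i ∈ s, p i * F i ≤ ∑ i, p i * F i :=
    Finset.sum_le_sum_of_subset (Finset.subset_univ s)
  exact absurd (h1.trans_le h2) (not_lt.2 h)

/-- **The choice of one good world.** -/
theorem exists_world {S : Ω → Set Pt} {s : Set Pt → Scene} {G : Set Pt → Prop}
    (hG : P {ω | ¬ G (S ω)} ≤ ENNReal.ofReal (1 / 2)) (hp : ∀ T, G T → ∑ i, (s T).p i = 1)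
    {F : ∀ T, (s T).ι → ℝ≥0∞} {δ : ℝ} (hδ : 0 < δ)
    (hF : UB P (fun ω => ⨆ _ : G (S ω), ∑ i, (s (S ω)).p i * F (S ω) i) (ENNReal.ofReal δ)) :
    ∃ ω, G (S ω) ∧ ∃ i, (s (S ω)).p i ≠ 0 ∧ F (S ω) i ≤ ENNReal.ofReal (3 * δ) := by
  have hκ : 2 * ENNReal.ofReal δ < ENNReal.ofReal (3 * δ) := by
    rw [show (2 : ℝ≥0∞) = ENNReal.ofReal 2 by norm_num, ← ENNReal.ofReal_mul (by norm_num)]
    exact (ENNReal.ofReal_lt_ofReal_iff (by positivity)).2 (by linarith)
  obtain ⟨ω, hω, h1⟩ := exists_of_UB hF (B := {ω | G (S ω)})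
    (by rwa [compl_setOf]) hκ
  rw [iSup_pos (show G (S ω) from hω)] at h1
  exact ⟨ω, hω, exists_index (hp _ hω) h1⟩

end

/-- The good event has probability at least one half for all large intensities. -/
theorem Ev_half {G : Set Pt → Prop} (hG : Ev.{u} G) : ∃ K : ℝ, ∀ (Ω : Type u) [MeasurableSpace Ω]
    (P : Measure Ω) [IsProbabilityMeasure P] (S : Ω → Set Pt) (lam : ℝ≥0),
    IsColouredPoisson P S lam → K ≤ lam → P {ω | ¬ G (S ω)} ≤ ENNReal.ofReal (1 / 2) :=
  hG (1 / 2) (by norm_num)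

end Vale.Agent.P148.R2.F
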