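import Vale.Agent.P148.R2.F.CalEnd
import Vale.Agent.P148.R2.H598.Lln5

/-!
# The end of the calibration (P148, row CAL)

`hcal_of_world` : the hypothesis `hcal` of `H598.lln_row` (the slope tends to zero) from an
inequality in one world: `κ ‖z‖ ≤ C₁ e + ε (1 + ‖z‖)` whenever the error function `E` and the
deviation `dv M z v` are at most `e ^ 2`.
-/

set_option linter.unusedSectionVars false

open MeasureTheory Set Metric Filter ProbabilityTheory Topology
open scoped ENNReal NNReal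

namespace Vale.Agent.P148.R2.F

open _root_.P148
open Vale.Agent.P148.R2.H566 (UB Ev EvMean Scene)
open Vale.Agent.P148.R2.H598 (dv slope LlnData)
open Vale.Agent.P148.R2.H504 (err tendsto_err)

universe u

/-- The input of the calibration at the level `ε`: with an error function `E` of small upper mean, in
every world of the scene, for every complex number `z` and every `e ≥ 0`, if `E` and the deviation
from `z` are at most `e ^ 2` then `κ ‖z‖ ≤ C₁ e + ε (1 + ‖z‖)`. -/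
structure CalWorld (s : ℕ → Set Pt → Scene) (v : ∀ M T, (s M T).ι → ℕ → ℂ) (κ C₁ ε : ℝ) (M : ℕ) :
    Prop where
  ex : ∃ G : Set Pt → Prop, Ev.{u} G ∧ (∀ T, G T → ∑ i, (s M T).p i = 1) ∧
    ∃ E : ∀ T, (s M T).ι → ℝ≥0∞,
      EvMean.{u} (fun T => ⨆ _ : G T, ∑ i, (s M T).p i * E T i) (ENNReal.ofReal ε) ∧
      ∀ T, G T → ∀ i, (s M T).p i ≠ 0 → ∀ (z : ℂ) (e : ℝ), 0 ≤ e →
        E T i ≤ ENNReal.ofReal (e ^ 2) → dv M z (v M T i) ≤ ENNReal.ofReal (e ^ 2) →
        κ * ‖z‖ ≤ C₁ * e + ε * (1 + ‖z‖)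

/-- **The slope tends to zero**, from the inequality in one world. -/
theorem hcal_of_world {s : ℕ → Set Pt → Scene} {v : ∀ M T, (s M T).ι → ℕ → ℂ} {q : ℕ}
    {m : ℕ → ℕ → Set Pt → ℂ} {C : ℝ} (hC : 0 ≤ C)
    (hN5 : ∀ᶠ M in atTop, LlnData.{u} s v q m C M) {κ C₁ : ℝ} (hκ : 0 < κ) (hC₁ : 0 ≤ C₁)
    (hW : ∀ ε : ℝ, 0 < ε → ∀ᶠ M in atTop, CalWorld.{u} s v κ C₁ ε M) :
    ∀ ε : ℝ, 0 < ε → ∀ᶠ M in atTop, ∃ K : ℝ, ∀ (Ω : Type u) [MeasurableSpace Ω]
      (P : Measure Ω) [IsProbabilityMeasure P] (S : Ω → Set Pt) (lam : ℝ≥0),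
      IsColouredPoisson P S lam → K ≤ lam → ‖slope P S M q (m M)‖ ≤ ε := by
  intro ε hε
  -- the constants
  obtain ⟨η, hη0, hη1, hη2⟩ : ∃ η : ℝ, 0 < η ∧ η ≤ κ / 2 ∧
      C₁ * Real.sqrt (6 * η) + η ≤ κ / 2 * ε := by
    have h1 : Tendsto (fun η : ℝ => C₁ * Real.sqrt (6 * η) + η) (𝓝[>] 0) (𝓝 0) := by
      have h2 : Continuous fun η : ℝ => C₁ * Real.sqrt (6 * η) + η := by fun_prop
      have h3 := (h2.tendsto 0).mono_left (nhdsWithin_le_nhds (s := Ioi (0 : ℝ)))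
      simpa using h3
    have h2 : ∀ᶠ η : ℝ in 𝓝[>] 0, C₁ * Real.sqrt (6 * η) + η ≤ κ / 2 * ε :=
      (h1.eventually (gt_mem_nhds (show (0 : ℝ) < κ / 2 * ε by positivity))).mono
        fun _ h => h.le
    have h3 : ∀ᶠ η : ℝ in 𝓝[>] 0, η ≤ κ / 2 := by
      have h4 : ∀ᶠ η : ℝ in 𝓝 0, η < κ / 2 := gt_mem_nhds (by positivity)
      exact (h4.filter_mono nhdsWithin_le_nhds).mono fun _ h => h.le
    obtain ⟨η, ha, hb, hc⟩ := (h2.and (h3.and self_mem_nhdsWithin)).exists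
    exact ⟨η, hc, hb, ha⟩
  have h1 : ∀ᶠ M : ℕ in atTop, err C M < η :=
    (tendsto_err C).eventually (gt_mem_nhds hη0)
  filter_upwards [hN5, hW η hη0, h1, eventually_gt_atTop 0] with M hM hM1 hM2 hM0
  obtain ⟨G, hG, hp, K, hK⟩ := hM.ub
  obtain ⟨G', hG', hp', E, ⟨K', hK'⟩, hE⟩ := hM1.ex
  obtain ⟨K'', hK''⟩ := Ev_half (hG.and hG')
  refine ⟨max K (max K' K''), fun Ω _ P _ S lam hS hl => ?_⟩
  have l1 : K ≤ lam := (le_max_left _ _).trans hl
  have l2 : K' ≤ lam := ((le_max_left _ _).trans (le_max_right _ _)).trans hl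
  have l3 : K'' ≤ lam := ((le_max_right _ _).trans (le_max_right _ _)).trans hl
  set z := slope P S M q (m M) with hz
  have h2 := (hK Ω P S lam hS l1).add (hK' Ω P S lam hS l2)
  have h3 := hK'' Ω P S lam hS l3
  have herr : 0 ≤ err C M := by unfold err; positivity
  have h4 : UB P (fun ω => ⨆ _ : G (S ω) ∧ G' (S ω), ∑ i, (s M (S ω)).p i *
      (dv M z (v M (S ω) i) + E (S ω) i)) (ENNReal.ofReal (2 * η)) := by
    refine h2.mono (Eventually.of_forall fun ω => ?_) ?_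
    · refine iSup_le fun hT => ?_
      have e2 : (fun T => ⨆ _ : G' T, ∑ i, (s M T).p i * E T i) (S ω) =
          ∑ i, (s M (S ω)).p i * E (S ω) i := iSup_pos hT.2
      rw [iSup_pos hT.1, e2, ← Finset.sum_add_distrib]
      exact Finset.sum_le_sum fun i _ => by rw [mul_add]
    · rw [← ENNReal.ofReal_add herr hη0.le]
      exact ENNReal.ofReal_le_ofReal (by linarith)
  obtain ⟨ω, hω, i, hi, hle⟩ := exists_world (s := s M) (G := fun T => G T ∧ G' T) h3
    (fun T hT => hp' T hT.2) (F := fun T i => dv M z (v M T i) + E T i) (δ := 2 * η)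
    (by positivity) h4
  have e1 : (3 * (2 * η) : ℝ) = Real.sqrt (6 * η) ^ 2 := by
    rw [Real.sq_sqrt (by positivity)]; ring
  rw [e1] at hle
  have h5 := hE (S ω) hω.2 i hi z (Real.sqrt (6 * η)) (Real.sqrt_nonneg _)
    (le_trans le_add_self hle) (le_trans le_self_add hle)
  have h6 := norm_nonneg z
  have h7 : κ / 2 * ‖z‖ ≤ κ / 2 * ε := by nlinarith
  exact le_of_mul_le_mul_left h7 (by positivity)

end Vale.Agent.P148.R2.F
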