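import Vale.Agent.P148.Final2
import Vale.Agent.P148.R2.H219.End5
import Vale.Agent.P148.R2.H258.A10
import Vale.Agent.P148.R2.H592.Contr
import Vale.Agent.P148.R2.H592.Gen2
import Vale.Agent.P148.R2.H729.Q2
import Vale.Agent.P148.R2.H847.Osc
import Vale.Agent.P148.R2.H847.Qpr

/-!
# P148, module F: the objects and the interfaces of the proof (architect file)

* `whp`   : the filter of the properties of (mesh, configuration) which hold with probability
            tending to one, for every family of coloured Poisson processes;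
* `Dom`   : a discrete three-arc domain;
* `Conv`  : discrete three-arc domains converging to (the three-arc domain of) a quad;
* `BVStmt`, `SStmt`, `LLNStmt`, `XStmt` : the four interfaces; `Asm.lean` derives the final theorem
            from them.
-/

open MeasureTheory Set Metric Topology Filter ProbabilityTheory
open scoped ENNReal NNReal ComplexConjugate

namespace Vale.Agent.P148.R2.F

open _root_.P148
open Vale.Agent.P148.R2.H592 (HullTri Fc vc tail head ConnIn CV Fib fib_cmap nbr vcell)
open Vale.Agent.P148.R2.H219 (IsTest WeakSmall dbar tau)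

universe u

/-! ### with high probability -/

/-- `∀ᶠ m in whp, A m`: for every family of coloured Poisson processes of intensity `ε ^ (-2)` on
any probability spaces, the (outer) probability that `A (ε, S ω)` fails tends to `0` as `ε → 0`. -/
def whp : Filter (ℝ × Set Pt) where
  sets := {A | ∀ (Ω : ℝ → Type u) [∀ ε, MeasurableSpace (Ω ε)] (P : ∀ ε, Measure (Ω ε))
    [∀ ε, IsProbabilityMeasure (P ε)] (S : ∀ ε, Ω ε → Set Pt),
    (∀ ε > 0, IsColouredPoisson (P ε) (S ε) (Real.toNNReal (ε ^ (-2 : ℤ)))) →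
    Tendsto (fun ε => P ε {ω | (ε, S ε ω) ∉ A}) (𝓝[>] 0) (𝓝 0)}
  univ_sets := by
    intro Ω _ P _ S _
    simp
  sets_of_superset := by
    intro A B hA hAB Ω _ P _ S hS
    refine tendsto_of_tendsto_of_tendsto_of_le_of_le tendsto_const_nhds (hA Ω P S hS)
      (fun ε => zero_le) fun ε => ?_
    exact measure_mono fun ω hω hm => hω (hAB hm)
  inter_sets := by
    intro A B hA hB Ω _ P _ S hS
    have h := (hA Ω P S hS).add (hB Ω P S hS)
    rw [add_zero] at h
    refine tendsto_of_tendsto_of_tendsto_of_le_of_le tendsto_const_nhds h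
      (fun ε => zero_le) fun ε => ?_
    refine (measure_mono ?_).trans (measure_union_le _ _)
    intro ω hω
    by_contra hcon
    simp only [mem_union, mem_ofPred_eq, not_or, not_not] at hcon
    exact hω ⟨hcon.1, hcon.2⟩

theorem eventually_whp {A : ℝ × Set Pt → Prop} : (∀ᶠ m in whp.{u}, A m) ↔
    ∀ (Ω : ℝ → Type u) [∀ ε, MeasurableSpace (Ω ε)] (P : ∀ ε, Measure (Ω ε))
    [∀ ε, IsProbabilityMeasure (P ε)] (S : ∀ ε, Ω ε → Set Pt),
    (∀ ε > 0, IsColouredPoisson (P ε) (S ε) (Real.toNNReal (ε ^ (-2 : ℤ)))) →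
    Tendsto (fun ε => P ε {ω | ¬ A (ε, S ε ω)}) (𝓝[>] 0) (𝓝 0) := Iff.rfl

/-! ### discrete three-arc domains -/

/-- A discrete three-arc domain: a finite generic set `X` of sites with a triangular hull, three
disjoint connected nonempty frozen classes `O 0`, `O 1`, `O 2` (all other sites are free), and a
dart `o` (the outer dart) of a face with one corner in every class, with its head in `O 0`.
(The other two corners may be in `O 1`, `O 2` in either order.) -/
structure Dom where
  X : Set ℂ
  b : ZMod 3 → ℂ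
  hull : HullTri X b
  O : ZMod 3 → Set ℂ
  disj : Pairwise fun i j => Disjoint (O i) (O j)
  conn : ∀ j, ConnIn X (O j)
  ne : ∀ j, (O j).Nonempty
  o : Fc X b × ZMod 3
  head_o : head o ∈ O 0
  tail_o : (tail o ∈ O 1 ∧ vc o.1 o.2 ∈ O 2) ∨ (tail o ∈ O 2 ∧ vc o.1 o.2 ∈ O 1)

namespace Dom

variable (D : Dom)

/-- The vertices: the three classes and the free sites. -/
abbrev V : Type := CV D.X D.O

/-- The darts: (face, index); the real end points are `tail` and `head`. -/
abbrev Dt : Type := Fc D.X D.b × ZMod 3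

/-- The contracted sphere triangulation. -/
noncomputable def T : H258.Tri D.V D.Dt :=
  D.hull.tri258 (H592.cmap D.X D.O) (fib_cmap D.disj D.conn D.ne)

theorem planar : D.T.Planar := D.hull.planar258 _ _

instance : Finite D.V := by
  have : Finite D.X := D.hull.fin
  infer_instance

noncomputable instance : Fintype D.V := Fintype.ofFinite _

instance : Finite (Fc D.X D.b) := D.hull.finite_Fc

noncomputable instance : Fintype (Fc D.X D.b) := Fintype.ofFinite _

/-- A free site. -/
def Free (x : ℂ) : Prop := x ∈ D.X ∧ ∀ j, x ∉ D.O j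

open Classical in
/-- The dart of the outer face with its head in `O j`. -/
noncomputable def oj (j : ZMod 3) : D.Dt := (D.o.1, D.o.2 + if tail D.o ∈ D.O 1 then 2 * j else j)

/-- The probability, given that `O j` has one colour and the two other classes the other one, that
the edge of `q` is on or beyond the crossing between the two other classes which is the closest to
`O j`. -/
noncomputable def H (j : ZMod 3) (q : D.Dt) : ℝ := (D.T.HH (D.oj j) q).re

/-- `q` is a dart whose tail is a nearest free site of `z`. -/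
def Near (z : ℂ) (q : D.Dt) : Prop :=
  D.Free (tail q) ∧ ∀ x, D.Free x → dist z (tail q) ≤ dist z x

open Classical in
/-- The observables as functions in the plane. -/
noncomputable def Hz (j : Fin 3) (z : ℂ) : ℝ :=
  if h : ∃ q : D.Dt, D.Near z q then D.H j h.choose else 0

/-- The centre of a face. -/
noncomputable def ctr (t : Fc D.X D.b) : ℂ := (vc t 0 + vc t 1 + vc t 2) / 3

/-- The shape of the face of a dart, seen from the dart. -/
noncomputable def p (q : D.Dt) : ℂ := tail q + tau * head q + tau ^ 2 * vc q.1 q.2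

open Classical in
/-- The sum `∑ χ(z) p(z) U(z)` over the faces `z` with three free corners; it does not depend on the
dart chosen on each face. -/
noncomputable def Usum (χ : ℂ → ℝ) : ℂ :=
  ∑ t : Fc D.X D.b, (if ∀ j, D.Free (vc t j) then (χ (D.ctr t) : ℂ) else 0) * D.p (t, 0) *
    D.T.UU (tau ^ 2) D.o (t, 0)

end Dom

/-! ### convergence of discrete domains to a quad -/

/-- The three arcs of a quad: `ab ∪ bc`, `cd`, `da`. -/
def arc3 (Q : Quad) (j : ZMod 3) : Set ℂ :=
  match j with
  | 0 => Q.arc 0 ∪ Q.arc 1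
  | 1 => Q.arc 2
  | 2 => Q.arc 3

/-- The discrete domains `E i` (made of the configurations `(m i).2`) converge to the three-arc
domain of the quad `Q` along the filter `l`. -/
structure Conv {ι : Type} (Q : Quad) (l : Filter ι) (m : ι → ℝ × Set Pt) (E : ι → Dom) : Prop where
  /-- the sites are points of the configuration, except the three far points of the hull -/
  sub : ∀ᶠ i in l, (E i).X ⊆ pts (m i).2 ∪ range (E i).b
  /-- large windows -/
  win : ∀ R : ℝ, ∀ᶠ i in l, pts (m i).2 ∩ ball 0 R ⊆ (E i).X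
  far : ∀ R : ℝ, ∀ᶠ i in l, ∀ j, R ≤ ‖(E i).b j‖
  /-- the sites inside are free -/
  inner : ∀ θ > 0, ∀ᶠ i in l, ∀ x ∈ (E i).X, ball x θ ⊆ Q.D → (E i).Free x
  /-- the free sites are in `Q.D` or near it -/
  outer : ∀ θ > 0, ∀ᶠ i in l, ∀ x, (E i).Free x → infDist x Q.D ≤ θ
  /-- the frozen sites adjacent to a free one are near their arc -/
  bdry : ∀ θ > 0, ∀ᶠ i in l, ∀ j, ∀ x ∈ (E i).O j, ∀ y, (E i).Free y → nbr (E i).X x y →
    infDist x (arc3 Q j) ≤ θ
  /-- every boundary point is approximated by frozen sites adjacent to free ones -/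
  reach : ∀ j, ∀ p ∈ arc3 Q j, ∀ θ > 0, ∀ᶠ i in l, ∃ x ∈ (E i).O j, ∃ y, (E i).Free y ∧
    nbr (E i).X x y ∧ dist x p ≤ θ ∧ dist y p ≤ θ
  /-- local connectivity up to the boundary, uniform -/
  loc : ∀ p ∈ closure Q.D, ∀ r > 0, ∃ δ > 0, ∀ᶠ i in l, ∀ x x', (E i).Free x → (E i).Free x' →
    dist x p < δ → dist x' p < δ → Relation.ReflTransGen
      (fun u v => nbr (E i).X u v ∧ (E i).Free u ∧ (E i).Free v ∧ dist u p < r ∧ dist v p < r) x x'
  /-- the free sites are connected -/
  fconn : ∀ᶠ i in l, ConnIn (E i).X {x | (E i).Free x}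
  /-- the faces at free sites are connected to the outer face through edges which are not loops -/
  oconn : ∀ᶠ i in l, ∀ q : (E i).Dt, (E i).Free (tail q) →
    Relation.EqvGen (E i).T.NLStep (E i).o q

/-! ### the quenched crossing probability -/

open Classical in
/-- The probability that a fair recolouring of the points in the ball of radius `R` has a black
crossing of the quad between the arcs `a` and `a'`. -/
noncomputable def qcross (Q : Quad) (a a' : Fin 4) (R : ℝ) (T : Set Pt) : ℝ :=
  (H729.avg (ball 0 R) ((crossSet Q a a').indicator 1) T).toReal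

/-! ### the interfaces -/

/-- **One-arm bound** (row R5), quenched, with high probability: `qpr N` is the uniform probability
on the subsets `W` (the black points) of the finite set of sites `N`; `UArm X W A B` says that there
is a path in `W` from `A` to `B`. -/
def ArmStmt : Prop :=
  ∀ ρ > 0, ∀ ε > 0, ∃ δ > 0, ∀ p : ℂ, ∀ᶠ m in whp.{u}, ∀ N ⊆ pts m.2, N.Finite →
    H847.qpr N (fun W => H847.UArm (pts m.2) W (closedBall p δ) (ball p ρ)ᶜ) ≤ ε

/-- **BV** (boundary values and equicontinuity), from the one-arm bounds. -/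
def BVStmt : Prop :=
  ∀ (Q : Quad) {ι : Type} (l : Filter ι) (m : ι → ℝ × Set Pt) (E : ι → Dom),
    Tendsto m l whp.{u} → Conv Q l m E →
    (∀ j : ZMod 3, ∀ p ∈ closure Q.D, ∀ η > 0, ∃ δ > 0, ∀ᶠ i in l, ∀ q q' : (E i).Dt,
      (E i).Free (tail q) → (E i).Free (tail q') → dist (tail q) p < δ → dist (tail q') p < δ →
      |(E i).H j q - (E i).H j q'| ≤ η) ∧
    (∀ j : ZMod 3, ∀ p ∈ arc3 Q j, ∀ η > 0, ∃ δ > 0, ∀ᶠ i in l, ∀ q : (E i).Dt,
      (E i).Free (tail q) → dist (tail q) p < δ → (E i).H j q ≤ η)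

/-- The observable `H_0 + τ H_1 + τ² H_2` in the order of the outer face of the domain: it is
`vec (Hz ·)` or its conjugate. -/
noncomputable def Dom.VV (D : Dom) (q : D.Dt) : ℂ :=
  D.T.HH D.o q + tau * D.T.HH (D.T.nxt (D.T.nxt D.o)) q + tau ^ 2 * D.T.HH (D.T.nxt D.o) q

/-- The class probabilities `U(z)`. -/
noncomputable def Dom.U (D : Dom) (q : D.Dt) : ℂ := D.T.UU (tau ^ 2) D.o q

/-- **S** (Stokes and tiling): if the observable is equicontinuous inside and the weighted sums tend
to `0` then `V` is weakly holomorphic in the limit. -/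
def SStmt : Prop :=
  ∀ (Q : Quad) {ι : Type} (l : Filter ι) (m : ι → ℝ × Set Pt) (E : ι → Dom),
    Tendsto m l whp.{u} → Conv Q l m E →
    (∀ p ∈ Q.D, ∀ η > 0, ∃ δ > 0, ∀ᶠ i in l, ∀ q q' : (E i).Dt,
      dist (tail q) p < δ → dist (tail q') p < δ → ‖(E i).VV q - (E i).VV q'‖ ≤ η) →
    ∀ χ : ℂ → ℝ, IsTest Q.D χ → Tendsto (fun i => (E i).Usum χ) l (𝓝 0) →
    ∀ η > 0, ∀ᶠ i in l, ∃ G : ℂ → ℂ, Integrable (fun z => dbar χ z * G z) ∧
      (∀ z ∈ tsupport (dbar χ), ∀ q : (E i).Dt, z ∈ vcell (E i).X (tail q) →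
        ‖G z - (E i).VV q‖ ≤ η) ∧ ‖∫ z, dbar χ z * G z‖ ≤ η

/-- **LLN + K + M**: the weighted sums tend to `0`. -/
def LLNStmt : Prop :=
  ∀ (Q : Quad) {ι : Type} (l : Filter ι) (m : ι → ℝ × Set Pt) (E : ι → Dom),
    Tendsto m l whp.{u} → Conv Q l m E →
    ∀ χ : ℂ → ℝ, IsTest Q.D χ → Tendsto (fun i => (E i).Usum χ) l (𝓝 0)

/-- **X** (domains and crossings; helper592, helper990): there are discrete domains `E`, `E'`
converging to `Q` whose observables at the second marked point bound the crossing probabilities of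
`Q` from below. -/
def XStmt : Prop :=
  ∀ Q : Quad, ∃ (ι : Type) (l : Filter ι) (m : ι → ℝ × Set Pt) (E E' : ι → Dom),
    map m l = whp.{u} ∧ Conv Q l m E ∧ Conv Q l m E' ∧
    ∃ R : ℝ, ∀ η > 0, ∀ δ > 0, ∀ᶠ i in l,
      (∃ z ∈ Q.D, dist z (Q.mark 1) < δ ∧ (E i).Hz 2 z ≤ qcross Q 0 2 R (m i).2 + η) ∧
      (∃ z ∈ Q.D, dist z (Q.mark 1) < δ ∧ (E' i).Hz 1 z ≤ qcross Q 1 3 R (m i).2 + η)

end Vale.Agent.P148.R2.F
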