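import Vale.Agent.P148.R2.F.Asm

/-!
# P148, module F: the theorem, from the four interfaces
-/

open MeasureTheory Set Metric Topology Filter ProbabilityTheory
open scoped ENNReal NNReal ComplexConjugate

namespace Vale.Agent.P148.R2.F

open _root_.P148

universe u

section prob

variable {Ω : Type u} [MeasurableSpace Ω] {P : Measure Ω} [IsProbabilityMeasure P]
  {S : Ω → Set Pt} {lam : ℝ≥0}

theorem avg_le_one {B : Set ℂ} {F : Set Pt → ℝ≥0∞} (hF : ∀ T, F T ≤ 1) (T : Set Pt) :
    H729.avg B F T ≤ 1 := by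
  unfold H729.avg H729.recolSum
  split_ifs with h
  · have h1 : ∑ W ∈ h.toFinset.powerset, F (H729.flipOn (W : Set ℂ) '' T) ≤
        2 ^ (pts T ∩ B).ncard := by
      refine (Finset.sum_le_card_nsmul _ _ 1 fun W _ => hF _).trans ?_
      rw [Finset.card_powerset, ← Set.ncard_eq_toFinset_card _ h]
      simp
    calc (2 ^ (pts T ∩ B).ncard)⁻¹ * ∑ W ∈ h.toFinset.powerset, F (H729.flipOn (W : Set ℂ) '' T)
        ≤ (2 ^ (pts T ∩ B).ncard)⁻¹ * 2 ^ (pts T ∩ B).ncard := by gcongr
      _ ≤ 1 := ENNReal.inv_mul_le_one _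
  · simp

theorem qcross_le_one (Q : Quad) (a a' : Fin 4) (R : ℝ) (T : Set Pt) : qcross Q a a' R T ≤ 1 := by
  unfold qcross
  have h : H729.avg (ball 0 R) ((crossSet Q a a').indicator 1) T ≤ 1 :=
    avg_le_one (fun T => Set.indicator_le_self' (fun _ _ => zero_le) T) T
  exact (ENNReal.toReal_mono ENNReal.one_ne_top h).trans (by simp)

theorem qcross_nonneg (Q : Quad) (a a' : Fin 4) (R : ℝ) (T : Set Pt) : 0 ≤ qcross Q a a' R T :=
  ENNReal.toReal_nonneg

theorem measurable_ind {X : Type*} {mX : MeasurableSpace X} {s : Set X} (hs : MeasurableSet s) :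
    Measurable (s.indicator (1 : X → ℝ≥0∞)) := measurable_one.indicator hs

/-- The annealed probability is the mean of the quenched one. -/
theorem mean_qcross (h : IsColouredPoisson P S lam) (Q : Quad) (a a' : Fin 4) (R : ℝ) :
    Measurable (fun ω => qcross Q a a' R (S ω)) ∧
    ∫ ω, qcross Q a a' R (S ω) ∂P = (P {ω | S ω ∈ crossSet Q a a'}).toReal := by
  classical
  have hM : MeasCrossStmt.{0} := measCross
  have hmeas : @Measurable _ _ voidSigma _ ((crossSet Q a a').indicator (1 : Set Pt → ℝ≥0∞)) :=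
    @measurable_ind (Set Pt) voidSigma _ (measurable_crossSet hM Q a a')
  have hav := H729.measurable_avg h measurableSet_ball isBounded_ball (B := ball 0 R) hmeas
  have hint := H729.lintegral_avg h measurableSet_ball isBounded_ball (B := ball 0 R) hmeas
  refine ⟨hav.ennreal_toReal, ?_⟩
  unfold qcross
  rw [integral_toReal hav.aemeasurable]
  · rw [hint]
    congr 1
    have e : (fun ω => (crossSet Q a a').indicator (1 : Set Pt → ℝ≥0∞) (S ω)) =
        {ω | S ω ∈ crossSet Q a a'}.indicator 1 := by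
      funext ω
      by_cases hω : S ω ∈ crossSet Q a a'
      · rw [indicator_of_mem hω, indicator_of_mem (show ω ∈ {ω | S ω ∈ crossSet Q a a'} from hω)]
        rfl
      · rw [indicator_of_notMem hω,
          indicator_of_notMem (show ω ∉ {ω | S ω ∈ crossSet Q a a'} from hω)]
    rw [e, lintegral_indicator_one]
    have hI : InvStmt.{u} := inv
    exact (prob_flip hI hM Q a a' h).1
  · refine Eventually.of_forall fun ω => lt_of_le_of_lt (avg_le_one (fun T => ?_) _) ENNReal.one_lt_top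
    exact Set.indicator_le_self' (fun _ _ => zero_le) T

theorem cross_ge (h : IsColouredPoisson P S lam) (Q : Quad) (a a' : Fin 4) (R c : ℝ) :
    c - |c| * (P {ω | ¬ c ≤ qcross Q a a' R (S ω)}).toReal ≤
      (P {ω | S ω ∈ crossSet Q a a'}).toReal := by
  obtain ⟨h1, h2⟩ := mean_qcross h Q a a' R
  rw [← h2]
  set A : Set Ω := {ω | ¬ c ≤ qcross Q a a' R (S ω)} with hA
  have hAm : MeasurableSet A := (measurableSet_le measurable_const h1).compl
  have hi : Integrable (fun ω => qcross Q a a' R (S ω)) P :=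
    Integrable.of_bound h1.aestronglyMeasurable 1 (Eventually.of_forall fun ω => by
      rw [Real.norm_eq_abs, abs_of_nonneg (qcross_nonneg _ _ _ _ _)]
      exact qcross_le_one _ _ _ _ _)
  have hiA : Integrable (A.indicator fun _ => |c|) P := (integrable_const _).indicator hAm
  have key : ∀ ω, c ≤ qcross Q a a' R (S ω) + A.indicator (fun _ => |c|) ω := by
    intro ω
    by_cases hω : ω ∈ A
    · rw [indicator_of_mem hω]
      have := qcross_nonneg Q a a' R (S ω)
      linarith [le_abs_self c]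
    · rw [indicator_of_notMem hω, add_zero]
      exact not_not.1 hω
  have h3 := integral_mono (integrable_const c) (hi.add hiA) key
  rw [integral_const, integral_add' hi hiA, integral_indicator_const _ hAm] at h3
  simp only [smul_eq_mul, measureReal_def, measure_univ, ENNReal.toReal_one, one_mul] at h3
  have h4 := mul_comm |c| (P A).toReal
  linarith

end prob

section fam

variable {Ω : ℝ → Type u} [∀ ε, MeasurableSpace (Ω ε)] {P : ∀ ε, Measure (Ω ε)}
  [∀ ε, IsProbabilityMeasure (P ε)] {S : ∀ ε, Ω ε → Set Pt}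

theorem eventually_cross_ge
    (hS : ∀ ε > 0, IsColouredPoisson (P ε) (S ε) (Real.toNNReal (ε ^ (-2 : ℤ))))
    (Q : Quad) (a a' : Fin 4) (R : ℝ) {c : ℝ} (h : ∀ᶠ m in whp.{u}, c ≤ qcross Q a a' R m.2)
    {κ : ℝ} (hκ : 0 < κ) : ∀ᶠ ε in 𝓝[>] 0,
      c - κ ≤ (P ε {ω | Q.Cross a a' (blackRegion (S ε ω))}).toReal := by
  have h1 := eventually_whp.1 h Ω P S hS
  have h2 : ∀ᶠ ε in 𝓝[>] (0 : ℝ), P ε {ω | ¬ c ≤ qcross Q a a' R (S ε ω)} ≤
      ENNReal.ofReal (κ / (|c| + 1)) :=
    (ENNReal.tendsto_nhds_zero.1 h1) _ (ENNReal.ofReal_pos.2 (by positivity))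
  filter_upwards [h2, self_mem_nhdsWithin] with ε h3 hε
  have hε' : (0 : ℝ) < ε := hε
  have hlam : 0 < Real.toNNReal (ε ^ (-2 : ℤ)) := Real.toNNReal_pos.2 (by positivity)
  have hg := ae_goodBd' kPoint2 colours2 hlam Q (hS ε hε')
  have he : {ω | Q.Cross a a' (blackRegion (S ε ω))} =ᵐ[P ε] {ω | S ε ω ∈ crossSet Q a a'} := by
    filter_upwards [hg] with ω hω
    refine propext ?_
    change Q.Cross a a' (blackRegion (S ε ω)) ↔ S ε ω ∈ crossSet Q a a'
    rw [region (S ε ω) hω.toGood]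
    exact Iff.rfl
  rw [measure_congr he]
  have h4 := cross_ge (hS ε hε') Q a a' R c
  have h5 : (P ε {ω | ¬ c ≤ qcross Q a a' R (S ε ω)}).toReal ≤ κ / (|c| + 1) :=
    ENNReal.toReal_le_of_le_ofReal (by positivity) h3
  have h6 : |c| * (P ε {ω | ¬ c ≤ qcross Q a a' R (S ε ω)}).toReal ≤ κ := by
    calc |c| * (P ε {ω | ¬ c ≤ qcross Q a a' R (S ε ω)}).toReal ≤ |c| * (κ / (|c| + 1)) := by
          gcongr
      _ = κ * (|c| / (|c| + 1)) := by ring
      _ ≤ κ * 1 := by
          gcongr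
          rw [div_le_one (by positivity)]
          linarith
      _ = κ := mul_one _
  linarith

/-- **The theorem, from the four interfaces.** -/
theorem cardy_of_stmts (hBV : BVStmt.{u}) (hSS : SStmt.{u}) (hL : LLNStmt.{u}) (hX : XStmt.{u})
    (Q : Quad) (φ : ℂ → ℂ) (x : ℝ) (hφ : Q.IsUniformizer φ x)
    (hS : ∀ ε > 0, IsColouredPoisson (P ε) (S ε) (Real.toNNReal (ε ^ (-2 : ℤ)))) :
    Tendsto (fun ε => (P ε {ω | Q.Cross 0 2 (blackRegion (S ε ω))}).toReal) (𝓝[>] 0)
      (𝓝 (cardy x)) := by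
  obtain ⟨ι, l, m, E, E', hm, hC, hC', R, hb⟩ := hX Q
  have hml : Tendsto m l whp.{u} := hm.le
  have h2 := (limit_of_stmts hBV hSS hL hφ hml hC).1
  have h1 := (limit_of_stmts hBV hSS hL hφ hml hC').2
  -- lower bounds of the quenched probabilities
  have low : ∀ η > 0, (∀ᶠ i in l, cardy x - 2 * η ≤ qcross Q 0 2 R (m i).2) ∧
      ∀ᶠ i in l, 1 - cardy x - 2 * η ≤ qcross Q 1 3 R (m i).2 := by
    intro η hη
    obtain ⟨δ2, hδ2, k2⟩ := h2 η hη
    obtain ⟨δ1, hδ1, k1⟩ := h1 η hη
    constructor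
    · filter_upwards [k2, hb η hη δ2 hδ2] with i e1 e2
      obtain ⟨z, hz, hzd, hzq⟩ := e2.1
      have := abs_le.1 (e1 z hz hzd)
      linarith [this.1]
    · filter_upwards [k1, hb η hη δ1 hδ1] with i e1 e2
      obtain ⟨z, hz, hzd, hzq⟩ := e2.2
      have := abs_le.1 (e1 z hz hzd)
      linarith [this.1]
  have low' : ∀ η > 0, (∀ᶠ m in whp.{u}, cardy x - 2 * η ≤ qcross Q 0 2 R m.2) ∧
      ∀ᶠ m in whp.{u}, 1 - cardy x - 2 * η ≤ qcross Q 1 3 R m.2 := by
    intro η hη
    rw [← hm]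
    exact ⟨(low η hη).1, (low η hη).2⟩
  rw [Metric.tendsto_nhds]
  intro κ hκ
  have hη : 0 < κ / 6 := by positivity
  have a1 := eventually_cross_ge hS Q 0 2 R (low' _ hη).1 hη
  have a2 := eventually_cross_ge hS Q 1 3 R (low' _ hη).2 hη
  filter_upwards [a1, a2, self_mem_nhdsWithin] with ε b1 b2 hε
  have hε' : (0 : ℝ) < ε := hε
  have hlam : 0 < Real.toNNReal (ε ^ (-2 : ℤ)) := Real.toNNReal_pos.2 (by positivity)
  have hsum := (duality kPoint2 colours2 hlam (hS ε hε') Q).2.2.2.1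
  have hsum' := congrArg ENNReal.toReal hsum
  rw [ENNReal.toReal_add (measure_ne_top _ _) (measure_ne_top _ _), ENNReal.toReal_one] at hsum'
  rw [Real.dist_eq, abs_lt]
  constructor <;> linarith

end fam

end Vale.Agent.P148.R2.F
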