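import Vale.Agent.P148.R2.F.Top
import Vale.Agent.P148.R2.H771.Quenched

/-!
# P148, module F: the final statement
-/

open MeasureTheory Set Metric Topology Filter ProbabilityTheory
open scoped ENNReal NNReal ComplexConjugate

namespace Vale.Agent.P148.R2.F

open _root_.P148
open Vale.Agent.P148.R2.H771 (posSigma)

universe u

/-- The uniformizer of the quad, or of the quad with the marks in the reversed order, exists. -/
theorem uni (Q : Quad) : ∃ Q' : Quad, Q'.D = Q.D ∧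
    ((∀ i, Q'.mark i = Q.mark i) ∨ (∀ i, Q'.mark i = Q.mark (3 - i))) ∧
    (∀ R, Q'.Cross 0 2 R ↔ Q.Cross 0 2 R) ∧ ∃ φ x, Q'.IsUniformizer φ x ∧ 0 < x ∧ x < 1 := by
  rcases H847.exists_uniformizer Q with h | h
  · exact ⟨Q, rfl, Or.inl fun _ => rfl, fun _ => Iff.rfl, h⟩
  · exact ⟨H847.rev Q, H847.rev_D Q, Or.inr (H847.rev_mark Q), H847.rev_cross Q, h⟩

/-- The final statement: (1) coloured Poisson processes exist; (2) every quad, or the quad with the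
marks in the reversed order (same domain, same crossing event), has a uniformizer; (3) the crossing
events are measurable up to null sets; (4) the limit, annealed and conditional on the positions of
the points. -/
def FinalStmt : Prop :=
  (∀ lam : ℝ≥0, ∃ (Ω : Type u) (_ : MeasurableSpace Ω) (P : Measure Ω)
    (_ : IsProbabilityMeasure P) (S : Ω → Set Pt), IsColouredPoisson P S lam) ∧
  (∀ Q : Quad, ∃ Q' : Quad, Q'.D = Q.D ∧
    ((∀ i, Q'.mark i = Q.mark i) ∨ (∀ i, Q'.mark i = Q.mark (3 - i))) ∧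
    (∀ R, Q'.Cross 0 2 R ↔ Q.Cross 0 2 R) ∧ ∃ φ x, Q'.IsUniformizer φ x) ∧
  (∀ (Ω : Type u) [m : MeasurableSpace Ω] (P : Measure Ω) [IsProbabilityMeasure P]
    (S : Ω → Set Pt) (lam : ℝ≥0), 0 < lam → IsColouredPoisson P S lam →
    posSigma S ≤ m ∧ ∀ Q : Quad, NullMeasurableSet {ω | Q.Cross 0 2 (blackRegion (S ω))} P) ∧
  ∀ (Q : Quad) (φ : ℂ → ℂ) (x : ℝ), Q.IsUniformizer φ x → (0 < x ∧ x < 1) ∧
    ∀ (Ω : ℝ → Type u) [∀ ε, MeasurableSpace (Ω ε)] (P : ∀ ε, Measure (Ω ε))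
      [∀ ε, IsProbabilityMeasure (P ε)] (S : ∀ ε, Ω ε → Set Pt),
      (∀ ε > 0, IsColouredPoisson (P ε) (S ε) (Real.toNNReal (ε ^ (-2 : ℤ)))) →
      Tendsto (fun ε => (P ε {ω | Q.Cross 0 2 (blackRegion (S ε ω))}).toReal) (𝓝[>] 0)
        (𝓝 (cardy x)) ∧
      Tendsto (fun ε => ∫ ω, |((P ε)[{ω | Q.Cross 0 2 (blackRegion (S ε ω))}.indicator
        (fun _ => (1 : ℝ)) | posSigma (S ε)]) ω - cardy x| ∂(P ε)) (𝓝[>] 0) (𝓝 0)

theorem final_of {x₀ : ℂ} (hM : H144.MEU.{u} x₀ (H184.th H219.tau)) : FinalStmt.{u} := by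
  refine ⟨H900.exists_colouredPoisson', fun Q => ?_,
    fun Ω _ P _ S lam hlam h => ⟨H771.posSigma_le h, fun Q => H771.nullMeasurable_cross hlam h Q⟩,
    fun Q φ x hφ => ⟨H847.x_mem_Ioo hφ, fun Ω _ P _ S hS => ⟨?_, ?_⟩⟩⟩
  · obtain ⟨Q', h1, h2, h3, φ, x, h4, -⟩ := uni Q
    exact ⟨Q', h1, h2, h3, φ, x, h4⟩
  · exact cardy_of_MEU hM P S hS Q φ x hφ
  · exact H771.quenched_of_stmts bvStmt sStmt (H144.lln_of_MEU hM) xStmt Q φ x hφ hS

end Vale.Agent.P148.R2.F
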