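import Vale.Agent.P148.R2.F.Whp

/-!
# P148, module F: first properties of the observables
-/

open MeasureTheory Set Metric Topology Filter ProbabilityTheory
open scoped ENNReal NNReal ComplexConjugate

namespace Vale.Agent.P148.R2.H258.Tri

variable {V D : Type*} (T : Tri V D) [Fintype V]

open Classical in
/-- The real form of `HH`. -/
noncomputable def HHr (o e : D) : ℝ :=
  4 / 2 ^ Fintype.card V * ∑ σ : V → Bool, if T.Mi σ o then (if T.InG σ o e ∨ T.InG σ o (T.rev e) ∨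
    (T.pot σ o e = 1 ∧ T.pot σ o (T.rev e) = 1) then 1 else 0) else 0

theorem HH_real (o e : D) : T.HH o e = (T.HHr o e : ℂ) := by
  unfold HH HHr NK
  push_cast
  congr 1
  refine Finset.sum_congr rfl fun σ _ => ?_
  split_ifs <;> simp

theorem HHr_nonneg (o e : D) : 0 ≤ T.HHr o e := by
  unfold HHr
  refine mul_nonneg (by positivity) (Finset.sum_nonneg fun σ _ => ?_)
  split_ifs <;> norm_num

theorem HHr_le_one {o : D} (ho : T.Good o) (e : D) : T.HHr o e ≤ 1 := by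
  classical
  have h := T.mi_sum ho
  have h' : (4 : ℝ) / 2 ^ Fintype.card V * (∑ σ : V → Bool, if T.Mi σ o then (1 : ℝ) else 0) = 1 := by
    have h2 : (((4 : ℝ) / 2 ^ Fintype.card V * (∑ σ : V → Bool, if T.Mi σ o then (1 : ℝ) else 0) :
        ℝ) : ℂ) = ((1 : ℝ) : ℂ) := by
      push_cast
      convert h using 3
      split_ifs <;> simp
    exact Complex.ofReal_injective h2
  rw [← h']
  unfold HHr
  refine mul_le_mul_of_nonneg_left (Finset.sum_le_sum fun σ _ => ?_) (by positivity)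
  split_ifs <;> norm_num

theorem HH_re (o e : D) : (T.HH o e).re = T.HHr o e := by rw [HH_real, Complex.ofReal_re]

theorem HH_eq_re (o e : D) : T.HH o e = ((T.HH o e).re : ℂ) := by rw [HH_re, HH_real]

end Vale.Agent.P148.R2.H258.Tri

namespace Vale.Agent.P148.R2.F

open _root_.P148
open Vale.Agent.P148.R2.H592 (HullTri Fc vc tail head ConnIn CV Fib fib_cmap nbr vcell)
open Vale.Agent.P148.R2.H219 (IsTest WeakSmall dbar tau)

universe u

namespace Dom

variable (D : Dom)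

theorem src_eq (q : D.Dt) : D.T.src q = H592.cmap D.X D.O (tail q) := rfl

theorem tgt_eq (q : D.Dt) : D.T.tgt q = H592.cmap D.X D.O (head q) := by
  show H592.cmap D.X D.O (tail (D.hull.rv q)) = _
  rw [D.hull.tail_rv]

theorem nxt_eq (q : D.Dt) : D.T.nxt q = (q.1, q.2 + 1) := rfl

theorem nxt2_eq (q : D.Dt) : D.T.nxt (D.T.nxt q) = (q.1, q.2 + 2) := by
  rw [nxt_eq, nxt_eq, add_assoc]
  rfl

theorem apex_eq (q : D.Dt) : D.T.apex q = H592.cmap D.X D.O (vc q.1 q.2) := by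
  show D.T.src (D.T.nxt (D.T.nxt q)) = _
  rw [nxt2_eq, src_eq, HullTri.tail_next2]

theorem cmap_O {j : ZMod 3} {x : ℂ} (h : x ∈ D.O j) : H592.cmap D.X D.O x = Sum.inl j :=
  H592.cmap_of_mem D.disj h

theorem cmap_free {x : ℂ} (h : D.Free x) : ∃ v, H592.cmap D.X D.O x = Sum.inr v :=
  ⟨_, H592.cmap_of_free h.1 h.2⟩

theorem good_o : D.T.Good D.o := by
  unfold H258.Tri.Good
  rw [src_eq, tgt_eq, apex_eq, D.cmap_O D.head_o]
  have h01 : (0 : ZMod 3) ≠ 1 := by decide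
  have h02 : (0 : ZMod 3) ≠ 2 := by decide
  have h12 : (1 : ZMod 3) ≠ 2 := by decide
  rcases D.tail_o with ⟨h1, h2⟩ | ⟨h1, h2⟩ <;> rw [D.cmap_O h1, D.cmap_O h2] <;>
    simp only [ne_eq, Sum.inl.injEq] <;> decide

theorem oj_zero : D.oj 0 = D.o := by
  unfold oj
  simp

theorem oj_cases (j : ZMod 3) : D.oj j = D.o ∨ D.oj j = D.T.nxt D.o ∨
    D.oj j = D.T.nxt (D.T.nxt D.o) := by
  rw [nxt2_eq, nxt_eq]
  obtain ⟨k, hk⟩ : ∃ k, D.oj j = (D.o.1, D.o.2 + k) := ⟨_, rfl⟩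
  have key : ∀ a k : ZMod 3, a + k = a ∨ a + k = a + 1 ∨ a + k = a + 2 := by decide
  rw [hk]
  rcases key D.o.2 k with h | h | h
  · left; rw [h]
  · right; left; rw [h]
  · right; right; rw [h]

theorem good_oj (j : ZMod 3) : D.T.Good (D.oj j) := by
  rcases D.oj_cases j with h | h | h <;> rw [h]
  · exact D.good_o
  · exact D.good_o.nxt
  · exact D.good_o.nxt.nxt

theorem H_nonneg (j : ZMod 3) (q : D.Dt) : 0 ≤ D.H j q := by
  unfold H
  rw [H258.Tri.HH_re]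
  exact D.T.HHr_nonneg _ _

theorem H_le_one (j : ZMod 3) (q : D.Dt) : D.H j q ≤ 1 := by
  unfold H
  rw [H258.Tri.HH_re]
  exact D.T.HHr_le_one (D.good_oj j) _

theorem HH_eq_H (j : ZMod 3) (q : D.Dt) : D.T.HH (D.oj j) q = (D.H j q : ℂ) := by
  unfold H
  exact H258.Tri.HH_eq_re _ _ _

/-- The two orientations. -/
theorem oj_one_two : (D.oj 1 = D.T.nxt (D.T.nxt D.o) ∧ D.oj 2 = D.T.nxt D.o) ∨
    (D.oj 1 = D.T.nxt D.o ∧ D.oj 2 = D.T.nxt (D.T.nxt D.o)) := by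
  rw [nxt2_eq, nxt_eq]
  unfold oj
  by_cases h : tail D.o ∈ D.O 1
  · left
    have e2 : (2 : ZMod 3) * 2 = 1 := by decide
    rw [if_pos h, if_pos h, mul_one, e2]
    exact ⟨rfl, rfl⟩
  · right
    rw [if_neg h, if_neg h]
    exact ⟨rfl, rfl⟩

/-- `D` has the good orientation. -/
def Pos : Prop := D.oj 1 = D.T.nxt (D.T.nxt D.o) ∧ D.oj 2 = D.T.nxt D.o

theorem not_pos (h : ¬ D.Pos) : D.oj 1 = D.T.nxt D.o ∧ D.oj 2 = D.T.nxt (D.T.nxt D.o) :=
  D.oj_one_two.resolve_left h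

theorem tau_root : tau ^ 2 + tau + 1 = 0 := by
  rw [H219.tau_sq]
  apply Complex.ext
  · simp only [tau, Complex.add_re, Complex.one_re, Complex.zero_re]; norm_num
  · simp only [tau, Complex.add_im, Complex.one_im, Complex.zero_im]; ring

theorem conj_tau : conj tau = tau ^ 2 := by
  rw [H219.tau_sq]
  apply Complex.ext
  · simp [tau]
  · simp [tau]

theorem VV_pos (h : D.Pos) (q : D.Dt) :
    D.VV q = (D.H 0 q : ℂ) + tau * (D.H 1 q : ℂ) + tau ^ 2 * (D.H 2 q : ℂ) := by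
  unfold VV
  rw [← D.HH_eq_H, ← D.HH_eq_H, ← D.HH_eq_H, D.oj_zero, h.1, h.2]

theorem VV_neg (h : ¬ D.Pos) (q : D.Dt) :
    D.VV q = conj ((D.H 0 q : ℂ) + tau * (D.H 1 q : ℂ) + tau ^ 2 * (D.H 2 q : ℂ)) := by
  have h' := D.not_pos h
  have e1 : D.T.HH D.o q = (D.H 0 q : ℂ) := by rw [← D.HH_eq_H, D.oj_zero]
  have e2 : D.T.HH (D.T.nxt D.o) q = (D.H 1 q : ℂ) := by rw [← D.HH_eq_H, h'.1]
  have e3 : D.T.HH (D.T.nxt (D.T.nxt D.o)) q = (D.H 2 q : ℂ) := by rw [← D.HH_eq_H, h'.2]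
  unfold VV
  rw [e1, e2, e3, map_add, map_add, map_mul, map_mul, map_pow, conj_tau, Complex.conj_ofReal,
    Complex.conj_ofReal, Complex.conj_ofReal]
  have h3 : tau ^ 3 = 1 := by
    linear_combination (tau - 1) * tau_root
  linear_combination (-tau * (D.H 2 q : ℂ)) * h3

theorem sum_H {q : D.Dt} (hq : Relation.EqvGen D.T.NLStep D.o q) (hf : D.Free (tail q)) :
    D.H 0 q + D.H 1 q + D.H 2 q = 1 := by
  have hne : D.T.src q ≠ D.T.tgt q := by
    rw [src_eq, tgt_eq]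
    obtain ⟨v, hv⟩ := D.cmap_free hf
    rw [hv]
    intro h
    have h1 : H592.cmap D.X D.O (head q) = Sum.inr v := h.symm
    have h2 := H592.eq_of_cmap h1
    have h3 := H592.eq_of_cmap hv
    have h4 := D.hull.nbr_th q
    have h5 : tail q ≠ head q := h4.2.2.1
    exact h5 (h3.trans h2.symm)
  have h := D.T.sum_HH D.planar D.good_o hq hne
  have hs : D.T.HH (D.T.nxt D.o) q + D.T.HH (D.T.nxt (D.T.nxt D.o)) q =
      ((D.H 1 q + D.H 2 q : ℝ) : ℂ) := by
    push_cast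
    rw [← D.HH_eq_H, ← D.HH_eq_H]
    rcases D.oj_one_two with h1 | h1
    · rw [h1.1, h1.2, add_comm]
    · rw [h1.1, h1.2]
  rw [add_assoc, hs, ← D.oj_zero, D.HH_eq_H] at h
  have : ((D.H 0 q + D.H 1 q + D.H 2 q : ℝ) : ℂ) = ((1 : ℝ) : ℂ) := by
    rw [← Complex.ofReal_add] at h
    rw [add_assoc, h, Complex.ofReal_one]
  exact Complex.ofReal_injective this

/-- Every free site is the tail of a dart. -/
theorem exists_dart_of_mem {x : ℂ} (hx : x ∈ D.X) : ∃ q : D.Dt, tail q = x := by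
  -- a second site
  obtain ⟨y, hy, hxy⟩ : ∃ y ∈ D.X, x ≠ y := by
    by_cases h : x = D.b 0
    · exact ⟨D.b 1, D.hull.mem 1, by
        rw [h]
        exact D.hull.b_ne (by decide)⟩
    · exact ⟨D.b 0, D.hull.mem 0, h⟩
  have hg := H592.graph_connected D.hull.fin hx hy
  rcases Relation.ReflTransGen.cases_head hg with h | ⟨z, h1, -⟩
  · exact absurd h hxy
  · obtain ⟨q, hq, -⟩ := D.hull.exists_dart h1
    exact ⟨q, hq⟩

theorem exists_near {y : ℂ} (hy : D.Free y) (z : ℂ) : ∃ q : D.Dt, D.Near z q := by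
  have hfin : {x | D.Free x}.Finite := D.hull.fin.subset fun x hx => hx.1
  obtain ⟨x, hx, hmin⟩ := Set.exists_min_image _ (fun x => dist z x) hfin ⟨y, hy⟩
  obtain ⟨q, hq⟩ := D.exists_dart_of_mem hx.1
  exact ⟨q, by rw [hq]; exact hx, fun w hw => by rw [hq]; exact hmin w hw⟩

theorem Hz_spec {y : ℂ} (hy : D.Free y) (z : ℂ) : ∃ q : D.Dt, D.Near z q ∧
    ∀ j : Fin 3, D.Hz j z = D.H j q := by
  have h := D.exists_near hy z
  refine ⟨h.choose, h.choose_spec, fun j => ?_⟩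
  unfold Hz
  rw [dif_pos h]

theorem Hz_bd (j : Fin 3) (z : ℂ) : 0 ≤ D.Hz j z ∧ D.Hz j z ≤ 1 := by
  unfold Hz
  split_ifs with h
  · exact ⟨D.H_nonneg _ _, D.H_le_one _ _⟩
  · exact ⟨le_rfl, zero_le_one⟩

end Dom

end Vale.Agent.P148.R2.F
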