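import Vale.Agent.P148.R2.H172.Asm
import Vale.Agent.P148.R2.H609.RowF
import Vale.Agent.P148.R2.H910.RowPcA
import Vale.Agent.P148.R2.H320.RowDoorA
import Vale.Agent.P148.R2.H659.RowVal
import Vale.Agent.P148.R2.H598.RowLln
import Vale.Agent.P148.R2.F.Main

/-!
# P148, assembly: the final statement from the calibration and the row (win)
-/

open Filter
open scoped ENNReal NNReal

universe u

namespace Vale.Agent.P148.R2.F

open Vale.Agent.P148.R2.H184 (th wt_th)
open Vale.Agent.P148.R2.H172 (fsc)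

/-- The missing-energy bound from the calibration inequality in the worlds of the scene and the row
(win). -/
theorem meu_of_cal_win {κ C₁ : ℝ} (hκ : 0 < κ) (hC₁ : 0 ≤ C₁)
    (hW : ∀ ε : ℝ, 0 < ε → ∀ᶠ M in atTop, CalWorld.{u} (fun M T => (fsc M T).toScene)
      (fun M T i k => (fsc M T).cv (th H219.tau) i k) κ C₁ ε M)
    (win : H172.RowWin.{u} (th H219.tau)) : H144.MEU.{u} H566.x0 (th H219.tau) := by
  have hΘ := wt_th Dom.tau_root
  exact H172.meu_of_rows4 hΘ (H609.rowSf hΘ) (H910.rowPc hΘ) H609.rowCnt (H659.rowVal _)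
    (H320.rowDoor hΘ) (H598.row_lln_of_world hΘ (H826.turn_th Dom.tau_root) hκ hC₁ hW) win

/-- The final statement from the calibration inequality in the worlds of the scene and the row
(win). -/
theorem final_of_cal_win {κ C₁ : ℝ} (hκ : 0 < κ) (hC₁ : 0 ≤ C₁)
    (hW : ∀ ε : ℝ, 0 < ε → ∀ᶠ M in atTop, CalWorld.{u} (fun M T => (fsc M T).toScene)
      (fun M T i k => (fsc M T).cv (th H219.tau) i k) κ C₁ ε M)
    (win : H172.RowWin.{u} (th H219.tau)) : FinalStmt.{u} :=
  final_of (meu_of_cal_win hκ hC₁ hW win)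

end Vale.Agent.P148.R2.F
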