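import Vale.Agent.P148.R2.F.Fin
import Vale.Agent.P148.R2.F.Arm
import Vale.Agent.P148.R2.H219.Ss
import Vale.Agent.P148.R2.H144.T3h
import Vale.Agent.P148.R2.H592.Conv8
import Vale.Agent.P148.R2.H847.Uni
import Vale.Agent.P148.R2.H900.PP3

/-!
# P148, module F: the theorem from the last input

`MEU` : a unit square has asymptotically no missing energy.
-/

open MeasureTheory Set Metric Topology Filter ProbabilityTheory
open scoped ENNReal NNReal ComplexConjugate

namespace Vale.Agent.P148.R2.F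

open _root_.P148

universe u

theorem sStmt : SStmt.{u} := H219.ss

theorem xStmt : XStmt.{u} := H592.xs armStmt

/-- The limit of the crossing probabilities, from the last input. -/
theorem cardy_of_MEU {x₀ : ℂ} (hM : H144.MEU.{u} x₀ (H184.th H219.tau))
    {Ω : ℝ → Type u} [∀ ε, MeasurableSpace (Ω ε)] (P : ∀ ε, Measure (Ω ε))
    [∀ ε, IsProbabilityMeasure (P ε)] (S : ∀ ε, Ω ε → Set Pt)
    (hS : ∀ ε > 0, IsColouredPoisson (P ε) (S ε) (Real.toNNReal (ε ^ (-2 : ℤ))))
    (Q : Quad) (φ : ℂ → ℂ) (x : ℝ) (hφ : Q.IsUniformizer φ x) :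
    Tendsto (fun ε => (P ε {ω | Q.Cross 0 2 (blackRegion (S ε ω))}).toReal) (𝓝[>] 0)
      (𝓝 (cardy x)) :=
  cardy_of_stmts bvStmt sStmt (H144.lln_of_MEU hM) xStmt Q φ x hφ hS

end Vale.Agent.P148.R2.F
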