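import Vale.Agent.P148.R2.F.Defs
import Vale.Agent.P148.R2.H291.Unif

/-!
# P148, module F: properties which hold with high probability
-/

open MeasureTheory Set Metric Topology Filter ProbabilityTheory
open scoped ENNReal NNReal

namespace Vale.Agent.P148.R2.F

open _root_.P148

universe u

theorem whp_of_le {A : ℝ → Set Pt → Prop} (f : ℝ → ℝ≥0∞) (hf : Tendsto f (𝓝[>] 0) (𝓝 0))
    (h : ∀ᶠ ε : ℝ in 𝓝[>] 0, ∀ (Ω : Type u) [MeasurableSpace Ω] (P : Measure Ω)
      [IsProbabilityMeasure P] (S : Ω → Set Pt),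
      IsColouredPoisson P S (Real.toNNReal (ε ^ (-2 : ℤ))) → P {ω | ¬ A ε (S ω)} ≤ f ε) :
    ∀ᶠ m in whp.{u}, A m.1 m.2 := by
  rw [eventually_whp]
  intro Ω _ P _ S hS
  refine tendsto_of_tendsto_of_tendsto_of_le_of_le' tendsto_const_nhds hf
    (Eventually.of_forall fun _ => bot_le) ?_
  filter_upwards [h, self_mem_nhdsWithin] with ε hε hε0
  exact hε (Ω ε) (P ε) (S ε) (hS ε hε0)

theorem whp_of_ae {A : ℝ → Set Pt → Prop}
    (h : ∀ ε : ℝ, 0 < ε → ∀ (Ω : Type u) [MeasurableSpace Ω] (P : Measure Ω)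
      [IsProbabilityMeasure P] (S : Ω → Set Pt),
      IsColouredPoisson P S (Real.toNNReal (ε ^ (-2 : ℤ))) → ∀ᵐ ω ∂P, A ε (S ω)) :
    ∀ᶠ m in whp.{u}, A m.1 m.2 := by
  refine whp_of_le (fun _ => 0) tendsto_const_nhds ?_
  filter_upwards [self_mem_nhdsWithin] with ε hε Ω _ P _ S hS
  exact (ae_iff.1 (h ε hε Ω P S hS)).le

/-- The mesh is small. -/
theorem whp_mesh {A : ℝ → Prop} (h : ∀ᶠ ε in 𝓝[>] 0, A ε) : ∀ᶠ m in whp.{u}, A m.1 := by
  refine whp_of_le (A := fun ε _ => A ε) (fun _ => 0) tendsto_const_nhds ?_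
  filter_upwards [h] with ε hε Ω _ P _ S hS
  simp [hε]

theorem tendsto_inten : Tendsto (fun ε : ℝ => ε ^ (-2 : ℤ)) (𝓝[>] 0) atTop := by
  have h1 : Tendsto (fun ε : ℝ => (ε ^ 2)⁻¹) (𝓝[>] 0) atTop := by
    refine tendsto_inv_nhdsGT_zero.comp ?_
    refine tendsto_nhdsWithin_iff.2 ⟨?_, ?_⟩
    · have : Tendsto (fun ε : ℝ => ε ^ 2) (𝓝 0) (𝓝 (0 ^ 2)) := (continuous_pow 2).tendsto 0
      rw [zero_pow two_ne_zero] at this
      exact this.mono_left nhdsWithin_le_nhds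
    · filter_upwards [self_mem_nhdsWithin] with ε hε
      have : (0 : ℝ) < ε := hε
      exact pow_pos this 2
  refine h1.congr fun ε => ?_
  rw [zpow_neg]
  rfl

/-- Every disc of radius `s` in a bounded window is well surrounded by points. -/
theorem whp_stab (R : ℝ) {s : ℝ} (hs : 0 < s) :
    ∀ᶠ m in whp.{u}, ∀ z ∈ closedBall (0 : ℂ) R, H291.Stab (pts m.2) z s := by
  by_cases hR : 0 ≤ R
  swap
  · refine Eventually.of_forall fun m z hz => ?_
    rw [closedBall_eq_empty.2 (not_le.1 hR)] at hz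
    exact hz.elim
  refine whp_of_le (A := fun _ T => ∀ z ∈ closedBall (0 : ℂ) R, H291.Stab (pts T) z s)
    (fun ε => ENNReal.ofReal ((2 * R / s + 3) ^ 2 * H291.net.card *
      Real.exp (-((Real.toNNReal (ε ^ (-2 : ℤ)) : ℝ≥0) * (Real.pi / 1024 * s ^ 2))))) ?_ ?_
  · rw [← ENNReal.ofReal_zero]
    refine ENNReal.tendsto_ofReal ?_
    have h1 : Tendsto (fun ε : ℝ => ((Real.toNNReal (ε ^ (-2 : ℤ)) : ℝ≥0) : ℝ) *
        (Real.pi / 1024 * s ^ 2)) (𝓝[>] 0) atTop := by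
      refine Tendsto.atTop_mul_const (by positivity) ?_
      refine tendsto_inten.congr' ?_
      filter_upwards [self_mem_nhdsWithin] with ε hε
      have : (0 : ℝ) < ε := hε
      rw [Real.coe_toNNReal _ (by positivity)]
    have h2 := (Real.tendsto_exp_neg_atTop_nhds_zero.comp h1).const_mul
      ((2 * R / s + 3) ^ 2 * (H291.net.card : ℝ))
    rw [mul_zero] at h2
    exact h2
  · refine Eventually.of_forall fun ε Ω _ P _ S hS => ?_
    refine (measure_mono ?_).trans (H291.stab_unif hS 0 hR hs)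
    intro ω hω
    simp only [mem_ofPred_eq, not_forall] at hω
    obtain ⟨z, hz, hn⟩ := hω
    exact ⟨z, hz, hn⟩

/-- The points form a net of mesh `θ` of every bounded window. -/
theorem whp_net (R : ℝ) {θ : ℝ} (hθ : 0 < θ) :
    ∀ᶠ m in whp.{u}, ∀ z ∈ closedBall (0 : ℂ) R, ∃ x ∈ pts m.2, dist z x < θ := by
  filter_upwards [whp_stab.{u} R hθ] with m hm z hz
  obtain ⟨x, hx, hx'⟩ := hm z hz z (mem_closedBall_self (by positivity))
  exact ⟨x, hx, hx'.trans_lt (by linarith)⟩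

/-- The configuration is generic. -/
theorem whp_generic (b : ZMod 3 → ℂ) : ∀ᶠ m in whp.{u}, H592.Generic m.2 b :=
  whp_of_ae (A := fun _ T => H592.Generic T b) fun _ _ _ _ _ _ _ hS => H592.ae_generic hS b

end Vale.Agent.P148.R2.F
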